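import Vale.Agent.P342.H403.Grid

/-! Module B of the plan for P342 in the form of the skeleton. -/

namespace Vale.Agent.P342

/-- Grid Lyusternik-Schnirelmann theorem (module B of the skeleton). -/
theorem borsuk (l c m : ℕ) (hm : 1 ≤ m) (hc : c ≤ l) (a : (Fin l → ℤ) → Fin c) :
    ∃ s s' : Fin l → ℤ, (∀ b, |s b| ≤ m) ∧ (∃ b, |s b| = m) ∧ (∀ b, |s' b| ≤ m) ∧
      (∃ b, |s' b| = m) ∧ (∀ b, |s b + s' b| ≤ 1) ∧ a s = a s' := by
  have hc0 : 0 < c := (a 0).pos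
  have _ := hm
  obtain ⟨s, s', hs, hs', h1, h2⟩ := H403.grid_ls (m := m) (by omega : 1 ≤ l)
    (κ := Fin c) (by simpa using hc) a
  exact ⟨s, s', hs.1, hs.2, hs'.1, hs'.2, h1, h2⟩

end Vale.Agent.P342
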